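import Vale.Agent.P050.Lev.KSid

/-!
The two-sided Sidorenko inequality follows from its case of biregular kernels
(types of words, no entropy).
-/

namespace Vale.Agent.P050.H149

open Finset Vale.Agent.P050.Lev

/-- The two-sided Sidorenko inequality for biregular kernels: all row means and column means
(on the supports of the weights) are `1`. -/
def BiregKSid {V : Type} [Fintype V] [DecidableEq V] (E : Finset (V × V)) (side : V → Bool) :
    Prop :=
  ∀ (U : Type) [Fintype U] (m : Bool → U → ℝ) (W : U → U → ℝ), (∀ b x, 0 ≤ m b x) →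
    (∀ b, ∑ x, m b x = 1) → (∀ x y, 0 ≤ W x y) →
    (∀ x, m false x ≠ 0 → ∑ y, m true y * W x y = 1) →
    (∀ y, m true y ≠ 0 → ∑ x, m false x * W x y = 1) →
    1 ≤ ∑ z : V → U, (∏ v, m (side v) (z v)) * ∏ e ∈ E, W (z e.1) (z e.2)

section words

variable {U : Type} {N : ℕ}

open Classical in
/-- the joint type of two words -/
noncomputable def ty (u v : Fin N → U) : U × U → Fin (N + 1) := fun a =>
  ⟨(univ.filter fun i => u i = a.1 ∧ v i = a.2).card, by
    have := card_le_univ (univ.filter fun i => u i = a.1 ∧ v i = a.2)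
    rw [Fintype.card_fin] at this
    omega⟩

theorem ty_comp (u v : Fin N → U) (σ : Equiv.Perm (Fin N)) : ty (u ∘ σ) (v ∘ σ) = ty u v := by
  classical
  funext a
  apply Fin.ext
  simp only [ty]
  rw [← Finset.card_map σ.toEmbedding]
  congr 1
  ext i
  simp only [mem_map, mem_filter, mem_univ, true_and, Function.comp_apply,
    Equiv.coe_toEmbedding]
  constructor
  · rintro ⟨j, hj, rfl⟩
    exact hj
  · intro h
    exact ⟨σ.symm i, by simpa using h, by simp⟩

theorem exists_perm {u v u' v' : Fin N → U} (h : ty u v = ty u' v') :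
    ∃ σ : Equiv.Perm (Fin N), u' = u ∘ σ ∧ v' = v ∘ σ := by
  classical
  have hc : ∀ a : U × U, Fintype.card {i // (u' i, v' i) = a} =
      Fintype.card {i // (u i, v i) = a} := by
    intro a
    have := congrArg Fin.val (congrFun h a)
    simp only [ty] at this
    rw [Fintype.card_subtype, Fintype.card_subtype]
    simp only [Prod.ext_iff]
    exact this.symm
  let σ : Equiv.Perm (Fin N) := Equiv.ofFiberEquiv (f := fun i => (u' i, v' i))
    (g := fun i => (u i, v i)) fun a => Fintype.equivOfCardEq (hc a)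
  have hσ : ∀ i, (u (σ i), v (σ i)) = (u' i, v' i) := fun i =>
    Equiv.ofFiberEquiv_map (f := fun i => (u' i, v' i)) (g := fun i => (u i, v i)) _ i
  refine ⟨σ, funext fun i => ?_, funext fun i => ?_⟩
  · exact (congrArg Prod.fst (hσ i)).symm
  · exact (congrArg Prod.snd (hσ i)).symm


/-- the product weight of a word -/
def wt {α : Type} (f : α → ℝ) (w : Fin N → α) : ℝ := ∏ i, f (w i)

theorem wt_comp {α : Type} (f : α → ℝ) (w : Fin N → α) (σ : Equiv.Perm (Fin N)) :
    wt f (w ∘ σ) = wt f w :=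
  Equiv.prod_comp σ fun i => f (w i)

/-- the product weight of a pair of words -/
def wt2 (W : U → U → ℝ) (u v : Fin N → U) : ℝ := ∏ i, W (u i) (v i)

theorem wt2_comp (W : U → U → ℝ) (u v : Fin N → U) (σ : Equiv.Perm (Fin N)) :
    wt2 W (u ∘ σ) (v ∘ σ) = wt2 W u v :=
  Equiv.prod_comp σ fun i => W (u i) (v i)

theorem wt_nonneg {α : Type} {f : α → ℝ} (hf : ∀ a, 0 ≤ f a) (w : Fin N → α) : 0 ≤ wt f w :=
  prod_nonneg fun _ _ => hf _

theorem wt2_nonneg {W : U → U → ℝ} (hW : ∀ a b, 0 ≤ W a b) (u v : Fin N → U) :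
    0 ≤ wt2 W u v :=
  prod_nonneg fun _ _ => hW _ _

variable [Fintype U]

theorem sum_wt {α : Type} [Fintype α] (f : α → ℝ) :
    ∑ w : Fin N → α, wt f w = (∑ a, f a) ^ N := by
  unfold wt
  rw [Fintype.sum_pow]

open Classical in
/-- the number of words `v` such that `u`, `v` have joint type `τ` -/
noncomputable def dg (τ : U × U → Fin (N + 1)) (u : Fin N → U) : ℕ :=
  (univ.filter fun v => ty u v = τ).card

open Classical in
/-- the number of words `u` such that `u`, `v` have joint type `τ` -/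
noncomputable def dg' (τ : U × U → Fin (N + 1)) (v : Fin N → U) : ℕ :=
  (univ.filter fun u => ty u v = τ).card

theorem dg_comp (τ : U × U → Fin (N + 1)) (u : Fin N → U) (σ : Equiv.Perm (Fin N)) :
    dg τ (u ∘ σ) = dg τ u := by
  classical
  unfold dg
  symm
  refine Finset.card_bij (fun v _ => v ∘ σ) ?_ ?_ ?_
  · intro v hv
    simp only [mem_filter, mem_univ, true_and] at hv ⊢
    rw [ty_comp, hv]
  · intro v _ v' _ h
    funext i
    have := congrFun h (σ.symm i)
    simpa using this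
  · intro v hv
    simp only [mem_filter, mem_univ, true_and] at hv
    refine ⟨v ∘ σ.symm, ?_, ?_⟩
    · simp only [mem_filter, mem_univ, true_and]
      rw [← ty_comp u (v ∘ σ.symm) σ, ← hv]
      congr 1
      funext i
      simp
    · funext i
      simp

theorem dg'_comp (τ : U × U → Fin (N + 1)) (v : Fin N → U) (σ : Equiv.Perm (Fin N)) :
    dg' τ (v ∘ σ) = dg' τ v := by
  classical
  unfold dg'
  symm
  refine Finset.card_bij (fun u _ => u ∘ σ) ?_ ?_ ?_
  · intro u hu
    simp only [mem_filter, mem_univ, true_and] at hu ⊢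
    rw [ty_comp, hu]
  · intro v _ v' _ h
    funext i
    have := congrFun h (σ.symm i)
    simpa using this
  · intro u hu
    simp only [mem_filter, mem_univ, true_and] at hu
    refine ⟨u ∘ σ.symm, ?_, ?_⟩
    · simp only [mem_filter, mem_univ, true_and]
      rw [← ty_comp (u ∘ σ.symm) v σ, ← hu]
      congr 1
      funext i
      simp
    · funext i
      simp

open Classical in
/-- the words `u` which have joint type `τ` with some word -/
noncomputable def LA (τ : U × U → Fin (N + 1)) : Finset (Fin N → U) :=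
  univ.filter fun u => ∃ v, ty u v = τ

open Classical in
/-- the words `v` which have joint type `τ` with some word -/
noncomputable def LB (τ : U × U → Fin (N + 1)) : Finset (Fin N → U) :=
  univ.filter fun v => ∃ u, ty u v = τ

theorem mem_LA {τ : U × U → Fin (N + 1)} {u v : Fin N → U} (h : ty u v = τ) : u ∈ LA τ := by
  classical
  simp only [LA, mem_filter, mem_univ, true_and]
  exact ⟨v, h⟩

theorem mem_LB {τ : U × U → Fin (N + 1)} {u v : Fin N → U} (h : ty u v = τ) : v ∈ LB τ := by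
  classical
  simp only [LB, mem_filter, mem_univ, true_and]
  exact ⟨u, h⟩

theorem perm_LA {τ : U × U → Fin (N + 1)} {u₀ v₀ u : Fin N → U} (h₀ : ty u₀ v₀ = τ)
    (hu : u ∈ LA τ) : ∃ σ : Equiv.Perm (Fin N), u = u₀ ∘ σ := by
  classical
  simp only [LA, mem_filter, mem_univ, true_and] at hu
  obtain ⟨v, hv⟩ := hu
  obtain ⟨σ, h, _⟩ := exists_perm (h₀.trans hv.symm)
  exact ⟨σ, h⟩

theorem perm_LB {τ : U × U → Fin (N + 1)} {u₀ v₀ v : Fin N → U} (h₀ : ty u₀ v₀ = τ)
    (hv : v ∈ LB τ) : ∃ σ : Equiv.Perm (Fin N), v = v₀ ∘ σ := by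
  classical
  simp only [LB, mem_filter, mem_univ, true_and] at hv
  obtain ⟨u, hu⟩ := hv
  obtain ⟨σ, _, h⟩ := exists_perm (h₀.trans hu.symm)
  exact ⟨σ, h⟩

theorem dg_LA {τ : U × U → Fin (N + 1)} {u₀ v₀ u : Fin N → U} (h₀ : ty u₀ v₀ = τ)
    (hu : u ∈ LA τ) : dg τ u = dg τ u₀ := by
  obtain ⟨σ, rfl⟩ := perm_LA h₀ hu
  exact dg_comp τ u₀ σ

theorem dg'_LB {τ : U × U → Fin (N + 1)} {u₀ v₀ v : Fin N → U} (h₀ : ty u₀ v₀ = τ)
    (hv : v ∈ LB τ) : dg' τ v = dg' τ v₀ := by
  obtain ⟨σ, rfl⟩ := perm_LB h₀ hv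
  exact dg'_comp τ v₀ σ

open Classical in
theorem sum_row (τ : U × U → Fin (N + 1)) (u : Fin N → U) :
    ∑ v : Fin N → U, (if ty u v = τ then (1 : ℝ) else 0) = dg τ u := by
  rw [← sum_filter, sum_const, nsmul_eq_mul, mul_one]
  rfl

open Classical in
theorem sum_col (τ : U × U → Fin (N + 1)) (v : Fin N → U) :
    ∑ u : Fin N → U, (if ty u v = τ then (1 : ℝ) else 0) = dg' τ v := by
  rw [← sum_filter, sum_const, nsmul_eq_mul, mul_one]
  rfl

open Classical in
theorem sum_LA {τ : U × U → Fin (N + 1)} {u₀ v₀ : Fin N → U} (h₀ : ty u₀ v₀ = τ) :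
    ∑ u : Fin N → U, ∑ v : Fin N → U, (if ty u v = τ then (1 : ℝ) else 0) =
      (LA τ).card * dg τ u₀ := by
  have : ∀ u : Fin N → U, ∑ v : Fin N → U, (if ty u v = τ then (1 : ℝ) else 0) =
      if u ∈ LA τ then (dg τ u₀ : ℝ) else 0 := by
    intro u
    by_cases hu : u ∈ LA τ
    · rw [sum_row, if_pos hu, dg_LA h₀ hu]
    · rw [if_neg hu]
      exact sum_eq_zero fun v _ => if_neg fun h => hu (mem_LA h)
  rw [sum_congr rfl fun u _ => this u, ← sum_filter, sum_const, nsmul_eq_mul]
  congr 2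
  simp

open Classical in
theorem sum_LB {τ : U × U → Fin (N + 1)} {u₀ v₀ : Fin N → U} (h₀ : ty u₀ v₀ = τ) :
    ∑ u : Fin N → U, ∑ v : Fin N → U, (if ty u v = τ then (1 : ℝ) else 0) =
      (LB τ).card * dg' τ v₀ := by
  rw [sum_comm]
  have : ∀ v : Fin N → U, ∑ u : Fin N → U, (if ty u v = τ then (1 : ℝ) else 0) =
      if v ∈ LB τ then (dg' τ v₀ : ℝ) else 0 := by
    intro v
    by_cases hv : v ∈ LB τ
    · rw [sum_col, if_pos hv, dg'_LB h₀ hv]
    · rw [if_neg hv]
      exact sum_eq_zero fun u _ => if_neg fun h => hv (mem_LB h)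
  rw [sum_congr rfl fun v _ => this v, ← sum_filter, sum_const, nsmul_eq_mul]
  congr 2
  simp

open Classical in
/-- the uniform weights on `LA τ` and `LB τ` -/
noncomputable def mU (τ : U × U → Fin (N + 1)) : Bool → (Fin N → U) → ℝ := fun b u =>
  if b then (if u ∈ LB τ then (1 / (LB τ).card : ℝ) else 0)
    else (if u ∈ LA τ then (1 / (LA τ).card : ℝ) else 0)

open Classical in
/-- the normalised kernel of the words with joint type `τ` -/
noncomputable def WU (τ : U × U → Fin (N + 1)) (d : ℕ) : (Fin N → U) → (Fin N → U) → ℝ :=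
  fun u v => if ty u v = τ then ((LB τ).card / d : ℝ) else 0

theorem mU_nonneg (τ : U × U → Fin (N + 1)) (b : Bool) (u : Fin N → U) : 0 ≤ mU τ b u := by
  classical
  unfold mU
  positivity

theorem WU_nonneg (τ : U × U → Fin (N + 1)) (d : ℕ) (u v : Fin N → U) : 0 ≤ WU τ d u v := by
  classical
  unfold WU
  positivity

theorem card_LA_pos {τ : U × U → Fin (N + 1)} {u₀ v₀ : Fin N → U} (h₀ : ty u₀ v₀ = τ) :
    (0 : ℝ) < (LA τ).card := by
  exact_mod_cast card_pos.2 ⟨u₀, mem_LA h₀⟩

theorem card_LB_pos {τ : U × U → Fin (N + 1)} {u₀ v₀ : Fin N → U} (h₀ : ty u₀ v₀ = τ) :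
    (0 : ℝ) < (LB τ).card := by
  exact_mod_cast card_pos.2 ⟨v₀, mem_LB h₀⟩

theorem dg_pos {τ : U × U → Fin (N + 1)} {u₀ v₀ : Fin N → U} (h₀ : ty u₀ v₀ = τ) :
    (0 : ℝ) < dg τ u₀ := by
  classical
  have : 0 < dg τ u₀ := by
    unfold dg
    exact card_pos.2 ⟨v₀, by simp [h₀]⟩
  exact_mod_cast this

theorem dg'_pos {τ : U × U → Fin (N + 1)} {u₀ v₀ : Fin N → U} (h₀ : ty u₀ v₀ = τ) :
    (0 : ℝ) < dg' τ v₀ := by
  classical
  have : 0 < dg' τ v₀ := by
    unfold dg'
    exact card_pos.2 ⟨u₀, by simp [h₀]⟩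
  exact_mod_cast this

theorem mU_sum {τ : U × U → Fin (N + 1)} {u₀ v₀ : Fin N → U} (h₀ : ty u₀ v₀ = τ) (b : Bool) :
    ∑ u, mU τ b u = 1 := by
  classical
  have hA := card_LA_pos h₀
  have hB := card_LB_pos h₀
  cases b
  · simp only [mU, Bool.false_eq_true, if_false]
    rw [← sum_filter, sum_const, nsmul_eq_mul]
    have : (univ.filter fun u => u ∈ LA τ) = LA τ := by ext; simp
    rw [this]
    field_simp
  · simp only [mU, if_true]
    rw [← sum_filter, sum_const, nsmul_eq_mul]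
    have : (univ.filter fun u => u ∈ LB τ) = LB τ := by ext; simp
    rw [this]
    field_simp

theorem WU_row {τ : U × U → Fin (N + 1)} {u₀ v₀ : Fin N → U} (h₀ : ty u₀ v₀ = τ)
    (u : Fin N → U) (hu : mU τ false u ≠ 0) :
    ∑ v, mU τ true v * WU τ (dg τ u₀) u v = 1 := by
  classical
  have hB := card_LB_pos h₀
  have hd := dg_pos h₀
  have huA : u ∈ LA τ := by
    by_contra h
    exact hu (by simp [mU, h])
  have : ∀ v, mU τ true v * WU τ (dg τ u₀) u v =
      (1 / dg τ u₀ : ℝ) * if ty u v = τ then (1 : ℝ) else 0 := by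
    intro v
    simp only [mU, WU, if_true]
    by_cases h : ty u v = τ
    · rw [if_pos h, if_pos h, if_pos (mem_LB h)]
      field_simp
    · rw [if_neg h, if_neg h]
      simp
  rw [sum_congr rfl fun v _ => this v, ← mul_sum, sum_row, dg_LA h₀ huA]
  field_simp

theorem WU_col {τ : U × U → Fin (N + 1)} {u₀ v₀ : Fin N → U} (h₀ : ty u₀ v₀ = τ)
    (v : Fin N → U) (hv : mU τ true v ≠ 0) :
    ∑ u, mU τ false u * WU τ (dg τ u₀) u v = 1 := by
  classical
  have hA := card_LA_pos h₀
  have hB := card_LB_pos h₀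
  have hd := dg_pos h₀
  have hd' := dg'_pos h₀
  have hvB : v ∈ LB τ := by
    by_contra h
    exact hv (by simp [mU, h])
  have : ∀ u, mU τ false u * WU τ (dg τ u₀) u v = ((LB τ).card / ((LA τ).card * dg τ u₀) : ℝ) *
      if ty u v = τ then (1 : ℝ) else 0 := by
    intro u
    simp only [mU, WU, Bool.false_eq_true, if_false]
    by_cases h : ty u v = τ
    · rw [if_pos h, if_pos h, if_pos (mem_LA h)]
      field_simp
    · rw [if_neg h, if_neg h]
      simp
  rw [sum_congr rfl fun u _ => this u, ← mul_sum, sum_col, dg'_LB h₀ hvB,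
    show ((LA τ).card * dg τ u₀ : ℝ) = (LB τ).card * dg' τ v₀ from
      (sum_LA h₀).symm.trans (sum_LB h₀)]
  field_simp

/-- the scale factors -/
noncomputable def cU (τ : U × U → Fin (N + 1)) (m : Bool → U → ℝ) (u₀ v₀ : Fin N → U) :
    Bool → ℝ := fun b =>
  if b then wt (m true) v₀ * (LB τ).card else wt (m false) u₀ * (LA τ).card

theorem cU_nonneg (τ : U × U → Fin (N + 1)) {m : Bool → U → ℝ} (hm : ∀ b x, 0 ≤ m b x)
    (u₀ v₀ : Fin N → U) (b : Bool) : 0 ≤ cU τ m u₀ v₀ b := by
  have h1 := wt_nonneg (hm true) v₀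
  have h2 := wt_nonneg (hm false) u₀
  unfold cU
  positivity

theorem wt_LA {τ : U × U → Fin (N + 1)} {u₀ v₀ u : Fin N → U} (h₀ : ty u₀ v₀ = τ)
    (hu : u ∈ LA τ) (f : U → ℝ) : wt f u = wt f u₀ := by
  obtain ⟨σ, rfl⟩ := perm_LA h₀ hu
  exact wt_comp f u₀ σ

theorem wt_LB {τ : U × U → Fin (N + 1)} {u₀ v₀ v : Fin N → U} (h₀ : ty u₀ v₀ = τ)
    (hv : v ∈ LB τ) (f : U → ℝ) : wt f v = wt f v₀ := by
  obtain ⟨σ, rfl⟩ := perm_LB h₀ hv
  exact wt_comp f v₀ σ

omit [Fintype U] in
theorem wt2_ty {τ : U × U → Fin (N + 1)} {u₀ v₀ u v : Fin N → U} (h₀ : ty u₀ v₀ = τ)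
    (h : ty u v = τ) (W : U → U → ℝ) : wt2 W u v = wt2 W u₀ v₀ := by
  obtain ⟨σ, rfl, rfl⟩ := exists_perm (h₀.trans h.symm)
  exact wt2_comp W _ _ σ

theorem cU_le_one {τ : U × U → Fin (N + 1)} {m : Bool → U → ℝ} (hm : ∀ b x, 0 ≤ m b x)
    (hm1 : ∀ b, ∑ x, m b x = 1) {u₀ v₀ : Fin N → U} (h₀ : ty u₀ v₀ = τ) (b : Bool) :
    cU τ m u₀ v₀ b ≤ 1 := by
  cases b
  · simp only [cU, Bool.false_eq_true, if_false]
    calc wt (m false) u₀ * (LA τ).card = ∑ u ∈ LA τ, wt (m false) u := by
          rw [sum_congr rfl fun u hu => wt_LA h₀ hu (m false), sum_const, nsmul_eq_mul, mul_comm]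
      _ ≤ ∑ u, wt (m false) u :=
          sum_le_sum_of_subset_of_nonneg (subset_univ _) fun _ _ _ => wt_nonneg (hm false) _
      _ = 1 := by rw [sum_wt, hm1, one_pow]
  · simp only [cU, if_true]
    calc wt (m true) v₀ * (LB τ).card = ∑ u ∈ LB τ, wt (m true) u := by
          rw [sum_congr rfl fun u hu => wt_LB h₀ hu (m true), sum_const, nsmul_eq_mul, mul_comm]
      _ ≤ ∑ u, wt (m true) u :=
          sum_le_sum_of_subset_of_nonneg (subset_univ _) fun _ _ _ => wt_nonneg (hm true) _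
      _ = 1 := by rw [sum_wt, hm1, one_pow]

theorem cU_mul_le {τ : U × U → Fin (N + 1)} {m : Bool → U → ℝ} (hm : ∀ b x, 0 ≤ m b x)
    {u₀ v₀ : Fin N → U} (h₀ : ty u₀ v₀ = τ) (b : Bool) (u : Fin N → U) :
    cU τ m u₀ v₀ b * mU τ b u ≤ wt (m b) u := by
  classical
  have hA := card_LA_pos h₀
  have hB := card_LB_pos h₀
  cases b
  · simp only [cU, mU, Bool.false_eq_true, if_false]
    by_cases h : u ∈ LA τ
    · rw [if_pos h, wt_LA h₀ h]
      apply le_of_eq
      field_simp
    · rw [if_neg h, mul_zero]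
      exact wt_nonneg (hm false) _
  · simp only [cU, mU, if_true]
    by_cases h : u ∈ LB τ
    · rw [if_pos h, wt_LB h₀ h]
      apply le_of_eq
      field_simp
    · rw [if_neg h, mul_zero]
      exact wt_nonneg (hm true) _

theorem WU_mul_le {τ : U × U → Fin (N + 1)} {W : U → U → ℝ} (hW : ∀ x y, 0 ≤ W x y)
    {u₀ v₀ : Fin N → U} (h₀ : ty u₀ v₀ = τ) (u v : Fin N → U) :
    (wt2 W u₀ v₀ * dg τ u₀ / (LB τ).card) * WU τ (dg τ u₀) u v ≤ wt2 W u v := by
  classical
  have hB := card_LB_pos h₀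
  have hd := dg_pos h₀
  simp only [WU]
  by_cases h : ty u v = τ
  · rw [if_pos h, wt2_ty h₀ h]
    apply le_of_eq
    field_simp
  · rw [if_neg h, mul_zero]
    exact wt2_nonneg hW _ _

open Classical in
/-- the weight of the pairs of words with joint type `τ` -/
noncomputable def qU (τ : U × U → Fin (N + 1)) (m : Bool → U → ℝ) (W : U → U → ℝ) : ℝ :=
  ∑ u : Fin N → U, ∑ v : Fin N → U, if ty u v = τ then
      wt (m false) u * wt (m true) v * wt2 W u v else 0

theorem qU_eq {τ : U × U → Fin (N + 1)} (m : Bool → U → ℝ) (W : U → U → ℝ)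
    {u₀ v₀ : Fin N → U} (h₀ : ty u₀ v₀ = τ) :
    qU τ m W = cU τ m u₀ v₀ false * cU τ m u₀ v₀ true *
      (wt2 W u₀ v₀ * dg τ u₀ / (LB τ).card) := by
  classical
  have hB := card_LB_pos h₀
  have h1 : qU τ m W = wt (m false) u₀ * wt (m true) v₀ * wt2 W u₀ v₀ *
      ((LA τ).card * dg τ u₀) := by
    rw [← sum_LA h₀, mul_sum, qU]
    refine sum_congr rfl fun u _ => ?_
    rw [mul_sum]
    refine sum_congr rfl fun v _ => ?_
    by_cases h : ty u v = τ
    · rw [if_pos h, if_pos h, wt_LA h₀ (mem_LA h), wt_LB h₀ (mem_LB h), wt2_ty h₀ h, mul_one]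
    · rw [if_neg h, if_neg h, mul_zero]
  rw [h1]
  simp only [cU, Bool.false_eq_true, if_false, if_true]
  field_simp

end words

variable {V : Type} [Fintype V] [DecidableEq V]

/-- the weighted density, in the form of `KSid` -/
noncomputable def dens {U : Type} [Fintype U] (E : Finset (V × V)) (side : V → Bool)
    (m : Bool → U → ℝ) (W : U → U → ℝ) : ℝ :=
  ∑ z : V → U, (∏ v, m (side v) (z v)) * ∏ e ∈ E, W (z e.1) (z e.2)

theorem dens_pow {U : Type} [Fintype U] (E : Finset (V × V)) (side : V → Bool)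
    (m : Bool → U → ℝ) (W : U → U → ℝ) (N : ℕ) :
    dens E side m W ^ N = dens (U := Fin N → U) E side (fun b => wt (m b)) (wt2 W) := by
  classical
  unfold dens
  rw [Fintype.sum_pow]
  rw [← Equiv.sum_comp (Equiv.piComm fun (_ : V) (_ : Fin N) => U)]
  refine sum_congr rfl fun z _ => ?_
  simp only [Equiv.piComm_apply, Function.swap]
  rw [prod_mul_distrib]
  congr 1
  · rw [prod_comm]
    rfl
  · rw [prod_comm]
    rfl

theorem prod_side_ge {E : Finset (V × V)} {side : V → Bool}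
    (hdir : ∀ e ∈ E, side e.1 = false ∧ side e.2 = true)
    (hiso : ∀ v, ∃ e ∈ E, e.1 = v ∨ e.2 = v) (c : Bool → ℝ) (hc0 : ∀ b, 0 ≤ c b)
    (hc1 : ∀ b, c b ≤ 1) : (c false * c true) ^ E.card ≤ ∏ v, c (side v) := by
  have hcard : ∀ b, (univ.filter fun v => side v = b).card ≤ E.card := by
    intro b
    cases b
    · calc (univ.filter fun v => side v = false).card ≤ (E.image Prod.fst).card := by
            apply card_le_card
            intro v hv
            simp only [mem_filter, mem_univ, true_and] at hv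
            obtain ⟨e, he, h | h⟩ := hiso v
            · exact mem_image.2 ⟨e, he, h⟩
            · rw [← h, (hdir e he).2] at hv
              exact absurd hv (by simp)
        _ ≤ E.card := card_image_le
    · calc (univ.filter fun v => side v = true).card ≤ (E.image Prod.snd).card := by
            apply card_le_card
            intro v hv
            simp only [mem_filter, mem_univ, true_and] at hv
            obtain ⟨e, he, h | h⟩ := hiso v
            · rw [← h, (hdir e he).1] at hv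
              exact absurd hv (by simp)
            · exact mem_image.2 ⟨e, he, h⟩
        _ ≤ E.card := card_image_le
  have : ∏ v, c (side v) = c false ^ (univ.filter fun v => side v = false).card *
      c true ^ (univ.filter fun v => side v = true).card := by
    rw [← prod_filter_mul_prod_filter_not univ (fun v => side v = false)]
    congr 1
    · rw [prod_congr rfl (g := fun _ => c false) fun v hv => by rw [(mem_filter.1 hv).2],
        prod_const]
    · rw [prod_congr rfl (g := fun _ => c true) fun v hv => by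
        rw [Bool.eq_true_of_not_eq_false (mem_filter.1 hv).2], prod_const]
      congr 2
      ext v
      simp
  rw [this, mul_pow]
  exact mul_le_mul (pow_le_pow_of_le_one (hc0 _) (hc1 _) (hcard _))
    (pow_le_pow_of_le_one (hc0 _) (hc1 _) (hcard _)) (pow_nonneg (hc0 _) _)
    (pow_nonneg (hc0 _) _)

theorem key {E : Finset (V × V)} {side : V → Bool}
    (hdir : ∀ e ∈ E, side e.1 = false ∧ side e.2 = true)
    (hiso : ∀ v, ∃ e ∈ E, e.1 = v ∨ e.2 = v) (hB : BiregKSid E side)
    {U : Type} [Fintype U] (m : Bool → U → ℝ) (W : U → U → ℝ) (hm : ∀ b x, 0 ≤ m b x)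
    (hm1 : ∀ b, ∑ x, m b x = 1) (hW : ∀ x y, 0 ≤ W x y) (N : ℕ) {τ : U × U → Fin (N + 1)}
    {u₀ v₀ : Fin N → U} (h₀ : ty u₀ v₀ = τ) :
    qU τ m W ^ E.card ≤ dens E side m W ^ N := by
  have h1 : 1 ≤ dens E side (mU τ) (WU τ (dg τ u₀)) :=
    hB (Fin N → U) (mU τ) (WU τ (dg τ u₀)) (mU_nonneg τ) (mU_sum h₀) (WU_nonneg τ _)
      (WU_row h₀) (WU_col h₀)
  have hc0 := cU_nonneg τ hm u₀ v₀
  set c := cU τ m u₀ v₀ with hc
  have hω0 := wt2_nonneg hW u₀ v₀
  set κ := wt2 W u₀ v₀ * dg τ u₀ / (LB τ).card with hκ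
  have hκ0 : 0 ≤ κ := by positivity
  have hcmp : (∏ v, c (side v)) * κ ^ E.card * dens E side (mU τ) (WU τ (dg τ u₀)) ≤
      dens E side m W ^ N := by
    rw [dens_pow]
    unfold dens
    rw [mul_sum]
    refine sum_le_sum fun z _ => ?_
    calc (∏ v, c (side v)) * κ ^ E.card *
          ((∏ v, mU τ (side v) (z v)) * ∏ e ∈ E, WU τ (dg τ u₀) (z e.1) (z e.2))
        = (∏ v, c (side v) * mU τ (side v) (z v)) *
          ∏ e ∈ E, κ * WU τ (dg τ u₀) (z e.1) (z e.2) := by
          rw [prod_mul_distrib, prod_mul_distrib, prod_const]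
          ring
      _ ≤ _ := by
          refine mul_le_mul ?_ ?_ ?_ ?_
          · exact prod_le_prod (fun v _ => mul_nonneg (hc0 _) (mU_nonneg τ _ _))
              fun v _ => cU_mul_le hm h₀ _ _
          · exact prod_le_prod (fun e _ => mul_nonneg hκ0 (WU_nonneg τ _ _ _))
              fun e _ => WU_mul_le hW h₀ _ _
          · exact prod_nonneg fun e _ => mul_nonneg hκ0 (WU_nonneg τ _ _ _)
          · exact prod_nonneg fun v _ => wt_nonneg (hm _) _
  calc qU τ m W ^ E.card = (c false * c true) ^ E.card * κ ^ E.card := by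
        rw [qU_eq m W h₀, mul_pow]
    _ ≤ (∏ v, c (side v)) * κ ^ E.card :=
        mul_le_mul_of_nonneg_right (prod_side_ge hdir hiso c hc0 (cU_le_one hm hm1 h₀))
          (pow_nonneg hκ0 _)
    _ ≤ (∏ v, c (side v)) * κ ^ E.card * dens E side (mU τ) (WU τ (dg τ u₀)) :=
        le_mul_of_one_le_right (mul_nonneg (prod_nonneg fun v _ => hc0 _) (pow_nonneg hκ0 _)) h1
    _ ≤ _ := hcmp

theorem sum_qU {U : Type} [Fintype U] [DecidableEq U] (m : Bool → U → ℝ) (W : U → U → ℝ)
    (N : ℕ) :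
    ∑ τ : U × U → Fin (N + 1), qU τ m W = (∑ x, ∑ y, m false x * m true y * W x y) ^ N := by
  classical
  unfold qU
  rw [sum_comm]
  have h1 : ∀ u : Fin N → U, ∑ τ : U × U → Fin (N + 1), ∑ v : Fin N → U,
      (if ty u v = τ then wt (m false) u * wt (m true) v * wt2 W u v else 0) =
      ∑ v : Fin N → U, wt (m false) u * wt (m true) v * wt2 W u v := by
    intro u
    rw [sum_comm]
    refine sum_congr rfl fun v _ => ?_
    rw [Finset.sum_ite_eq]
    simp
  rw [sum_congr rfl fun u _ => h1 u]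
  have h2 : (∑ x, ∑ y, m false x * m true y * W x y) =
      ∑ a : U × U, m false a.1 * m true a.2 * W a.1 a.2 := by
    rw [Fintype.sum_prod_type]
  rw [h2, Fintype.sum_pow]
  rw [← Equiv.sum_comp (Equiv.arrowProdEquivProdArrow (Fin N) (fun _ => U) fun _ => U).symm]
  rw [Fintype.sum_prod_type]
  refine sum_congr rfl fun u _ => sum_congr rfl fun v _ => ?_
  simp only [wt, wt2, Equiv.arrowProdEquivProdArrow, Equiv.coe_fn_symm_mk]
  rw [prod_mul_distrib, prod_mul_distrib]

/-- **Reduction to biregular kernels.** -/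
theorem ksid_of_bireg {E : Finset (V × V)} {side : V → Bool}
    (hdir : ∀ e ∈ E, side e.1 = false ∧ side e.2 = true)
    (hiso : ∀ v, ∃ e ∈ E, e.1 = v ∨ e.2 = v) (hB : BiregKSid E side) : KSid E side := by
  classical
  refine ⟨hdir, fun U _ m W hm hm1 hW => ?_⟩
  set p := ∑ x, ∑ y, m false x * m true y * W x y with hp
  have hp0 : 0 ≤ p := sum_nonneg fun x _ => sum_nonneg fun y _ =>
    mul_nonneg (mul_nonneg (hm _ _) (hm _ _)) (hW _ _)
  change p ^ E.card ≤ dens E side m W
  have ht0 : 0 ≤ dens E side m W := sum_nonneg fun z _ =>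
    mul_nonneg (prod_nonneg fun v _ => hm _ _) (prod_nonneg fun e _ => hW _ _)
  rcases Nat.eq_zero_or_pos E.card with hE | hE
  · -- no edges, hence no vertices
    have hV : IsEmpty V := ⟨fun v => by
      obtain ⟨e, he, _⟩ := hiso v
      rw [card_eq_zero] at hE
      rw [hE] at he
      exact absurd he (notMem_empty _)⟩
    rw [hE, pow_zero]
    unfold dens
    rw [card_eq_zero] at hE
    subst hE
    simp
  -- the inequality for words of length `N`
  set k := Fintype.card (U × U) * E.card with hk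
  have hN : ∀ N : ℕ, (p ^ E.card) ^ N ≤ dens E side m W ^ N * ((N : ℝ) + 1) ^ k := by
    intro N
    have hsum := sum_qU m W N
    rw [← hp] at hsum
    have hne : (univ : Finset (U × U → Fin (N + 1))).Nonempty := univ_nonempty
    obtain ⟨τ, _, hτ⟩ := exists_le_of_sum_le (s := univ)
      (f := fun _ : U × U → Fin (N + 1) => p ^ N / ((N : ℝ) + 1) ^ Fintype.card (U × U))
      (g := fun τ => qU τ m W) hne (by
        rw [hsum, sum_const, nsmul_eq_mul, card_univ, Fintype.card_fun, Fintype.card_fin]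
        push_cast
        have : (0 : ℝ) < ((N : ℝ) + 1) ^ Fintype.card (U × U) := by positivity
        rw [mul_div_cancel₀ _ this.ne'])
    have hτ' : p ^ N / ((N : ℝ) + 1) ^ Fintype.card (U × U) ≤ qU τ m W := hτ
    have hpos : (0 : ℝ) < ((N : ℝ) + 1) ^ Fintype.card (U × U) := by positivity
    have hfin : (p ^ N) ^ E.card ≤
        (qU τ m W * ((N : ℝ) + 1) ^ Fintype.card (U × U)) ^ E.card := by
      refine pow_le_pow_left₀ (pow_nonneg hp0 _) ?_ _
      exact (div_le_iff₀ hpos).1 hτ'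
    by_cases hex : ∃ u₀ v₀, ty u₀ v₀ = τ
    · obtain ⟨u₀, v₀, h₀⟩ := hex
      have := key hdir hiso hB m W hm hm1 hW N h₀
      calc (p ^ E.card) ^ N = (p ^ N) ^ E.card := by rw [← pow_mul, ← pow_mul, mul_comm]
        _ ≤ _ := hfin
        _ = qU τ m W ^ E.card * ((N : ℝ) + 1) ^ k := by rw [mul_pow, ← pow_mul, hk]
        _ ≤ _ := mul_le_mul_of_nonneg_right this (by positivity)
    · have hq0 : qU τ m W = 0 := by
        unfold qU
        exact sum_eq_zero fun u _ => sum_eq_zero fun v _ => if_neg fun h => hex ⟨u, v, h⟩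
      calc (p ^ E.card) ^ N = (p ^ N) ^ E.card := by rw [← pow_mul, ← pow_mul, mul_comm]
        _ ≤ _ := hfin
        _ = 0 := by rw [hq0, zero_mul, zero_pow hE.ne']
        _ ≤ _ := by positivity
  -- the limit
  rcases hp0.eq_or_lt with hp0' | hppos
  · rw [← hp0', zero_pow hE.ne']
    exact ht0
  have hpE : 0 < p ^ E.card := pow_pos hppos _
  by_contra hlt
  rw [not_le] at hlt
  set r := dens E side m W / p ^ E.card with hr
  have hr0 : 0 ≤ r := div_nonneg ht0 hpE.le
  have hr1 : r < 1 := (div_lt_one hpE).2 hlt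
  have hge : ∀ N : ℕ, 1 ≤ ((N : ℝ) + 1) ^ k * r ^ N := by
    intro N
    rw [hr, div_pow, mul_div_assoc', le_div_iff₀ (pow_pos hpE _), one_mul, mul_comm]
    exact hN N
  have hrpos : 0 < r := by
    rcases hr0.eq_or_lt with h | h
    · have := hge 1
      rw [← h] at this
      norm_num at this
    · exact h
  have hlim := tendsto_pow_const_mul_const_pow_of_abs_lt_one k (r := r) (by
    rw [abs_of_nonneg hr0]; exact hr1)
  have hlim' := hlim.comp (Filter.tendsto_add_atTop_nat 1)
  have : r ≤ 0 := by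
    refine ge_of_tendsto' hlim' fun N => ?_
    simp only [Function.comp_apply]
    push_cast
    calc r = 1 * r := (one_mul r).symm
      _ ≤ (((N : ℝ) + 1) ^ k * r ^ N) * r := mul_le_mul_of_nonneg_right (hge N) hr0
      _ = ((N : ℝ) + 1) ^ k * r ^ (N + 1) := by rw [pow_succ]; ring
  linarith

end Vale.Agent.P050.H149
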